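import Vale.Agent.P025.R2.H855.Stmt
import Vale.Agent.P025.H641.OSec
import Vale.Agent.P025.R2.H637.Stmt

/-! # Sections for open curves: the notions used in the statement -/

namespace Vale.Agent.N025

open P025H641 P025H855

universe u v

variable (k : Type u) {E : Type v} [Field k] [Field E] [Algebra k E]

/-- `M` is closed under unramified extensions: if `A ≤ B` are finite extensions of `E`, `A` lies
in `M` and every value of a place of `B` over `k` is the value of an element of `A`, then `B` lies
in `M`. -/
def IsUnrClosed (M : IntermediateField E (AlgebraicClosure E)) : Prop :=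
  ∀ A B : IntermediateField E (AlgebraicClosure E), FiniteDimensional E B → A ≤ B → A ≤ M →
    (∀ V : ValuationSubring B, IsPlace k B V →
      ∀ x : B, ∃ y : B, (y : AlgebraicClosure E) ∈ A ∧ V.valuation y = V.valuation x) → B ≤ M

/-- the genus of `K k̄ / k̄` -/
noncomputable def geomGenus (K : Type v) [Field K] [Algebra k K] : ℕ∞ :=
  genus (constClosure k K) (geomField k K)

/-- `M` contains a finite extension `K` of `E` such that `K k̄ / k̄` has genus at least two. -/
def HasBigGenus (M : IntermediateField E (AlgebraicClosure E)) : Prop :=
  ∃ K : IntermediateField E (AlgebraicClosure E), FiniteDimensional E K ∧ K ≤ M ∧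
    2 ≤ geomGenus k K

/-- the valuation ring `W` of the subfield `L` of the algebraic closure of `E` restricts to the
valuation ring `V` of `E` -/
def RestrictsTo {L : Subfield (AlgebraicClosure E)} (W : ValuationSubring L)
    (V : ValuationSubring E) : Prop :=
  ∀ (x : E) (y : L), (y : AlgebraicClosure E) = algebraMap E (AlgebraicClosure E) x →
    (x ∈ V ↔ y ∈ W)

/-- the cusps: the valuation rings of `E k̄` which restrict to a place of `E / k` that is not in
`T` -/
def Cusps (T : Set (ValuationSubring E)) : Set (ValuationSubring (geomField k E).toSubfield) :=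
  {W | ∃ V, IsPlace k E V ∧ V ∉ T ∧ RestrictsTo W V}

/-- The curve with the places in `T` is hyperbolic, `2 g - 2 + n > 0`: here `g` is the genus of
`E k̄ / k̄` and `n` is the number of cusps. -/
def IsHyperbolicPair (T : Set (ValuationSubring E)) : Prop :=
  2 < 2 * geomGenus k E + (Cusps k T).encard

variable {k}

/-- `W` is a place of `M / k` (a valuation ring of `M` which contains `k` and is not `M`), and the
image of the section `s` maps `W` into itself. -/
def IsStablePlace {M : IntermediateField E (AlgebraicClosure E)} (s : SecOf k M)
    (W : ValuationSubring M) : Prop :=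
  W ≠ ⊤ ∧ (∀ c : k, algebraMap k M c ∈ W) ∧
    ∀ (σ : GalOf (constClosure k E)) (x y : M), (s.hom σ).Maps x y → x ∈ W → y ∈ W

/-- a place of `M / k` stable under `s` lies over the valuation ring `V` of `E` -/
def IsOver {M : IntermediateField E (AlgebraicClosure E)} (s : SecOf k M)
    (V : ValuationSubring E) : Prop :=
  ∃ W : ValuationSubring M, IsStablePlace s W ∧ W.comap (algebraMap E M) = V

/-- exactly one place of `M / k` is stable under `s`, and it lies over a rational place of
`E / k` -/
def IsLocalized {M : IntermediateField E (AlgebraicClosure E)} (s : SecOf k M) : Prop :=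
  (∃! W : ValuationSubring M, IsStablePlace s W) ∧
    ∃ V : ValuationSubring E, IsRatPlace k E V ∧ IsOver s V

/-- `s'` is the conjugate of `s` by an automorphism of `M / E` which fixes the constants -/
def IsGeomConj {M : IntermediateField E (AlgebraicClosure E)} (s s' : SecOf k M) : Prop :=
  ∃ g : GalOf M, (∀ x ∈ constClosure k E, g.Maps x x) ∧ ∀ σ, s'.hom σ = g * s.hom σ * g⁻¹

end Vale.Agent.N025
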