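import Vale.Agent.N025.Pair
import Vale.Agent.N025.Geo

/-! # The section conjecture for open curves -/

open IntermediateField Polynomial

namespace Vale.Agent.N025

open P025H855 P025H641 Vale.Agent.P025.R2.H637

universe u v

variable {k : Type u} {E : Type v} [Field k] [CharZero k] [Field E] [Algebra k E]
  {T : Set (ValuationSubring E)}

/-- over the places in `T` there are no new values -/
lemma sameValues_maxOut
    (W : ValuationSubring (maxOut k T : IntermediateField E (AlgebraicClosure E)))
    (hW : IsPlace k E (W.comap (algebraMap E _))) (hT : W.comap (algebraMap E _) ∈ T) :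
    G.SameValues W := by
  obtain ⟨W', rfl⟩ := exists_val_extension (L := AlgebraicClosure E) W
  have hc : (W'.comap (algebraMap (maxOut k T : IntermediateField E (AlgebraicClosure E))
      (AlgebraicClosure E))).comap (algebraMap E _) =
      W'.comap (algebraMap E (AlgebraicClosure E)) := by
    ext z
    rw [ValuationSubring.mem_comap, ValuationSubring.mem_comap, ValuationSubring.mem_comap,
      ← IsScalarTower.algebraMap_apply]
  rw [hc] at hW hT
  intro y
  obtain ⟨F, hF, hyF⟩ := exists_finOut_mem y.2
  have hfin := hF.1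
  obtain ⟨a, ha⟩ := SameVal.bot_iff.1 ((isUnrOver_iff F).1 hF.2 W' hW hT) y hyF
  refine ⟨a, ?_⟩
  rw [comap_sub_val_iff]
  exact ha

/-- the sections over a rational place in `T` form exactly one conjugacy class -/
theorem points_maxOut (V : ValuationSubring E) (hVT : V ∈ T) (hV : IsRatPlace k E V) :
    (∃ (s : SecOf k (maxOut k T : IntermediateField E (AlgebraicClosure E)))
      (W : ValuationSubring (maxOut k T : IntermediateField E (AlgebraicClosure E))),
        IsStablePlace s W ∧ W.comap (algebraMap E _) = V) ∧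
    ∀ (s s' : SecOf k (maxOut k T : IntermediateField E (AlgebraicClosure E)))
      (W W' : ValuationSubring (maxOut k T : IntermediateField E (AlgebraicClosure E))),
      IsStablePlace s W → IsStablePlace s' W' → W.comap (algebraMap E _) = V →
        W'.comap (algebraMap E _) = V →
        ∃ g : GalOf (maxOut k T : IntermediateField E (AlgebraicClosure E)),
          (∀ x ∈ constClosure k E, g.Maps x x) ∧ ∀ σ, s'.hom σ = g * s.hom σ * g⁻¹ := by
  have hM : Fact (ConstIn k (maxOut k T : IntermediateField E (AlgebraicClosure E))) :=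
    ⟨constIn_maxOut⟩
  constructor
  · obtain ⟨W, rfl⟩ := exists_val_extension
      (L := (maxOut k T : IntermediateField E (AlgebraicClosure E))) V
    obtain ⟨s, hs⟩ := G.exists_geo_section W hV (sameValues_maxOut W hV.toIsPlace hVT)
    refine ⟨s, W, ⟨?_, G.const_mem' W hV, hs⟩, rfl⟩
    rintro rfl
    apply ratPlace_ne_top hV
    ext x
    simp [ValuationSubring.mem_comap]
  · intro s s' W W' h h' hW hW'
    obtain ⟨-, -, h3⟩ := (isStablePlace_iff s W).1 h
    obtain ⟨-, -, h3'⟩ := (isStablePlace_iff s' W').1 h'
    obtain ⟨g, hg, -, hconj⟩ := G.exists_conj s.isSecOf s'.isSecOf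
      (sameValues_maxOut W' (by rw [hW']; exact hV.toIsPlace) (by rw [hW']; exact hVT))
      (hW'.trans hW.symm) (by rw [hW]; exact hV) h3 h3'
    refine ⟨g, fun x hx => ?_, hconj⟩
    have hint : IsIntegral k x := (mem_algebraicClosure_iff.1 hx).isIntegral
    refine ⟨⟨x, hM.out _ hint⟩, rfl, ?_⟩
    exact congrArg Subtype.val (hg ⟨x, hM.out _ hint⟩ (isIntegral_coeM.1 hint))

/-- sections are localized -/
theorem isLocalized (p : ℕ) [Fact p.Prime] [Algebra ℚ_[p] k] [FiniteDimensional ℚ_[p] k]
    {M : IntermediateField E (AlgebraicClosure E)} [Normal E M] (hE : IsFunctionField k E)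
    (hM : IsUnrClosed k M) (hbig : HasBigGenus k M) (s : SecOf k M) : IsLocalized s := by
  obtain ⟨h1, h2⟩ := section_conjecture p hE hM hbig s
  obtain ⟨W, hW⟩ := h1.exists
  exact ⟨h1, _, h2 W hW, W, hW, rfl⟩

/-- the sections over a point -/
theorem points (V : ValuationSubring E) (hVT : V ∈ T) (hV : IsRatPlace k E V) :
    (∃ s : SecOf k (maxOut k T : IntermediateField E (AlgebraicClosure E)), IsOver s V) ∧
    ∀ s s' : SecOf k (maxOut k T : IntermediateField E (AlgebraicClosure E)),
      IsOver s V → IsOver s' V → IsGeomConj s s' := by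
  obtain ⟨⟨s, W, h⟩, h2⟩ := points_maxOut V hVT hV
  refine ⟨⟨s, W, h⟩, ?_⟩
  rintro s s' ⟨W, h, hW⟩ ⟨W', h', hW'⟩
  exact h2 s s' W W' h h' hW hW'

end Vale.Agent.N025
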