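import Vale.Agent.N025.Main

/-! # Open curves: the maximal extension unramified over a set of places -/

open IntermediateField Polynomial

namespace Vale.Agent.N025

open Vale.Agent.P019P P025H855 P025H641 P025H492 Vale.Agent.P025.R2.H637

universe u v w

section quintic

variable {kb L : Type*} [Field kb] [Field L] [Algebra kb L] [CFF kb L]

lemma ord_sub_of_lt (P : Plk kb L) {z w : L} (hz : z ≠ 0) (hw : ord P z < ord P w) :
    ord P (z + w) = ord P z :=
  (ord_add_of_lt hz (mem_Mge.2 (Or.inr (by omega)))).2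

/-- the curve `y ^ 5 = t (t - 1)` has genus at least two -/
theorem two_le_gen_quintic [CharZero kb] {t y : L} (ht : ∀ a : kb, t ≠ algebraMap kb L a)
    (hy : y ^ 5 = t * (t - 1)) (hdeg : Module.finrank kb⟮t⟯ L ≤ 5) : 2 ≤ gen kb L := by
  classical
  have c1 : CFF kb kb⟮t⟯ := cff_adjoin ht
  have hfin : FiniteDimensional kb⟮t⟯ L := (finite_of_notMem ht).2
  have ht0 : t ≠ 0 := fun h => ht 0 (by rw [h, map_zero])
  have ht1 : t - 1 ≠ 0 := fun h => ht 1 (by rw [map_one]; exact sub_eq_zero.1 h)
  have hord : ∀ P : Plk kb L, 5 * ord P y = ord P t + ord P (t - 1) := by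
    intro P
    rw [← ord_mul P ht0 ht1, ← hy, ord_pow]
    rfl
  obtain ⟨P₀, hP₀⟩ := exists_pole (nc_inv (nc_sub ht 0))
  obtain ⟨P₁, hP₁⟩ := exists_pole (nc_inv (nc_sub ht 1))
  obtain ⟨P₂, hP₂⟩ := exists_pole ht
  rw [ord_inv] at hP₀ hP₁
  have r₀ := ord_sub_eq_ram ht (P := P₀) (c := 0) (by omega)
  have r₁ := ord_sub_eq_ram ht (P := P₁) (c := 1) (by omega)
  have r₂ := ord_eq_neg_ram ht hP₂
  rw [map_zero, sub_zero] at hP₀ r₀
  rw [map_one] at hP₁ r₁
  have hm1 : ∀ P : Plk kb L, ord P (-1 : L) = 0 := fun P => by rw [ord_neg, ord_one]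
  have a₀ : ord P₀ (t - 1) = 0 := by
    have h := ord_sub_of_lt P₀ (z := -1) (w := t) (neg_ne_zero.2 one_ne_zero)
      (by rw [hm1]; omega)
    rw [hm1, neg_add_eq_sub] at h
    exact h
  have a₁ : ord P₁ t = 0 := by
    have h := ord_sub_of_lt P₁ (z := 1) (w := t - 1) one_ne_zero (by rw [ord_one]; omega)
    rw [ord_one, add_sub_cancel] at h
    exact h
  have a₂ : ord P₂ (t - 1) = ord P₂ t := by
    have h := ord_sub_of_lt P₂ (z := t) (w := -1) ht0 (by rw [hm1]; omega)
    rw [← sub_eq_add_neg] at h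
    exact h
  have b₀ := hord P₀
  have b₁ := hord P₁
  have b₂ := hord P₂
  have d₀ : (5 : ℤ) ≤ ram kb⟮t⟯ P₀ := by omega
  have d₁ : (5 : ℤ) ≤ ram kb⟮t⟯ P₁ := by omega
  have d₂ : (5 : ℤ) ≤ ram kb⟮t⟯ P₂ := by omega
  have n01 : P₀ ≠ P₁ := by rintro rfl; omega
  have n02 : P₀ ≠ P₂ := by rintro rfl; omega
  have n12 : P₁ ≠ P₂ := by rintro rfl; omega
  have hle : Finsupp.single P₀ (4 : ℤ) + Finsupp.single P₁ 4 + Finsupp.single P₂ 4 ≤
      ramDiv kb kb⟮t⟯ L := by
    intro P
    have h0 := ram_pos (K := kb⟮t⟯) P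
    rw [ramDiv_apply, Finsupp.add_apply, Finsupp.add_apply, Finsupp.single_apply,
      Finsupp.single_apply, Finsupp.single_apply]
    split_ifs with h1 h2 h3 h4 h5 h6 h7
    all_goals first | omega | (subst_vars; omega)
  have h1 := dg_mono hle
  rw [map_add, map_add, dg_sgl, dg_sgl, dg_sgl] at h1
  have h2 := riemann_hurwitz kb kb⟮t⟯ L
  have h3 : (Module.finrank kb⟮t⟯ L : ℤ) ≤ 5 := by exact_mod_cast hdeg
  have h4 : (0 : ℤ) ≤ Module.finrank kb⟮t⟯ L := Int.natCast_nonneg _
  have h5 : (0 : ℤ) ≤ gen kb kb⟮t⟯ := Int.natCast_nonneg _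
  have h6 : (-10 : ℤ) ≤ Module.finrank kb⟮t⟯ L * (2 * (gen kb kb⟮t⟯ : ℤ) - 2) := by nlinarith
  omega

end quintic

section sub

variable {kb Ω : Type*} [Field kb] [Field Ω] [Algebra kb Ω]

/-- the subfield generated by `t` and `y` -/
theorem quintic_subfield [CharZero kb] (hkb : IsAlgClosed kb) {t y : Ω} (ht : Transcendental kb t)
    (hy : y ^ 5 = t * (t - 1)) : ∃ _ : CFF kb kb⟮t, y⟯, 2 ≤ gen kb kb⟮t, y⟯ := by
  set L : IntermediateField kb Ω := kb⟮t, y⟯ with hL
  let t' : L := ⟨t, IntermediateField.subset_adjoin _ _ (by simp)⟩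
  let y' : L := ⟨y, IntermediateField.subset_adjoin _ _ (by simp)⟩
  have ht' : Transcendental kb t' := fun h => ht (h.algHom L.val)
  have hy' : y' ^ 5 = t' * (t' - 1) := Subtype.ext hy
  have htop : (kb⟮t'⟯⟮y'⟯ : IntermediateField kb⟮t'⟯ L) = ⊤ := by
    apply IntermediateField.restrictScalars_injective kb
    rw [IntermediateField.adjoin_simple_adjoin_simple, IntermediateField.restrictScalars_top]
    apply IntermediateField.lift_injective
    rw [IntermediateField.lift_top, IntermediateField.lift, IntermediateField.adjoin_map,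
      Set.image_insert_eq, Set.image_singleton]
    rfl
  let c : kb⟮t'⟯ := AdjoinSimple.gen kb t' * (AdjoinSimple.gen kb t' - 1)
  have hmon : (X ^ 5 - C c : kb⟮t'⟯[X]).Monic := monic_X_pow_sub_C c (by norm_num)
  have hroot : aeval y' (X ^ 5 - C c : kb⟮t'⟯[X]) = 0 := by
    rw [map_sub, map_pow, aeval_X, aeval_C, hy', sub_eq_zero]
    rfl
  have hint : IsIntegral kb⟮t'⟯ y' := ⟨_, hmon, by rwa [← aeval_def]⟩
  have hfin0 := IntermediateField.adjoin.finiteDimensional hint
  have hrank := IntermediateField.adjoin.finrank hint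
  rw [htop] at hfin0
  rw [htop, IntermediateField.finrank_top'] at hrank
  have hfin : FiniteDimensional kb⟮t'⟯ L := LinearEquiv.finiteDimensional
    (IntermediateField.topEquiv (F := kb⟮t'⟯) (E := L)).toLinearEquiv
  have hcff : CFF kb L := ⟨hkb, t', ht', hfin⟩
  refine ⟨hcff, two_le_gen_quintic (t := t') (y := y')
    (fun a h => ht' (h ▸ isAlgebraic_algebraMap a)) hy' ?_⟩
  rw [hrank]
  have h1 := minpoly.min kb⟮t'⟯ y' hmon hroot
  have h2 := natDegree_le_natDegree h1
  rwa [natDegree_X_pow_sub_C] at h2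

end sub

section out

variable {k : Type u} {E : Type v} [Field k] [CharZero k] [Field E] [Algebra k E]
  {T : Set (ValuationSubring E)}

/-- a subfield of big genus over the constants -/
theorem two_le_genus_of (hE : IsFunctionField k E) (K : IntermediateField E (AlgebraicClosure E))
    [FiniteDimensional E K] (L : IntermediateField (constClosure k E) (AlgebraicClosure E))
    [CFF (constClosure k E) L] (hg : 2 ≤ gen (constClosure k E) L)
    (hL : ∀ x ∈ L, x ∈ withConst k K) : 2 ≤ genus (constClosure k K) (geomField k K) := by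
  have c2 := cff_geomField (funField_of_finite hE K)
  let ψ := psi K
  let φ : L →+* geomField k K :=
    ((ψ.symm : AlgebraicClosure E →+* AlgebraicClosure K).comp
      (algebraMap L (AlgebraicClosure E))).codRestrict (geomField k K).toSubfield.toSubring
      (fun x => symm_mem_geom K ψ (hL x x.2))
  have hchar : CharZero (constClosure k E) :=
    charZero_of_injective_algebraMap (algebraMap k (constClosure k E)).injective
  have h1 := gen_le_semi (constEquiv k K ψ).symm.toRingEquiv φ (fun a => Subtype.ext rfl)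
  refine le_trans ?_ gen_le_genus
  exact_mod_cast hg.trans h1

omit [CharZero k] in
lemma adjoin_mem_withConst (K : IntermediateField E (AlgebraicClosure E))
    (S : Set (AlgebraicClosure E)) (hS : ∀ x ∈ S, x ∈ K) {x : AlgebraicClosure E}
    (hx : x ∈ IntermediateField.adjoin (constClosure k E) S) : x ∈ withConst k K := by
  induction hx using IntermediateField.adjoin_induction with
  | mem y hy => exact (withConst k K).algebraMap_mem ⟨y, hS y hy⟩
  | algebraMap c =>
    exact IntermediateField.subset_adjoin _ _ (mem_algebraicClosure_iff.1 c.2).isIntegral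
  | add y z _ _ h1 h2 => exact add_mem h1 h2
  | inv y _ h1 => exact inv_mem h1
  | mul y z _ _ h1 h2 => exact mul_mem h1 h2

/-- curves of genus at least two -/
theorem hasBigGenus_of_genus (hE : IsFunctionField k E)
    (hg : 2 ≤ genus (constClosure k E) (geomField k E))
    (M : IntermediateField E (AlgebraicClosure E)) : HasBigGenus k M := by
  have c1 := cff_geomField hE
  have h1 : 2 ≤ gen (constClosure k E) (geomField k E) := by
    have h2 := hg.trans (genus_le_gen (F := constClosure k E) (L := geomField k E))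
    exact_mod_cast h2
  refine ⟨⊥, inferInstance, bot_le, two_le_genus_of hE ⊥ (geomField k E) h1 ?_⟩
  intro x hx
  refine adjoin_mem_withConst ⊥ _ ?_ hx
  rintro _ ⟨z, rfl⟩
  exact IntermediateField.algebraMap_mem _ z

/-- `maxOut` is closed under unramified extensions -/
theorem isUnrClosed_maxOut :
    IsUnrClosed k (maxOut k T : IntermediateField E (AlgebraicClosure E)) := by
  intro A B hB hAB hA h
  have hfinA : FiniteDimensional E A :=
    FiniteDimensional.of_injective (IntermediateField.inclusion hAB).toLinearMap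
      (IntermediateField.inclusion_injective hAB)
  have hAO := isFinOut_of_le_maxOut hA
  refine IsFinOut.le_maxOut ⟨hB, ?_⟩
  rw [isUnrOver_iff]
  intro W hW hWT
  refine SameVal.trans ?_ ((isUnrOver_iff A).1 hAO.2 W hW hWT)
  intro x hx
  obtain ⟨y, hy, h1⟩ := h _ (place_of_fin hW B) ⟨x, hx⟩
  rw [comap_sub_val_iff] at h1
  exact ⟨y, hy, h1⟩

/-- curves whose universal cover maps to the projective line without three points -/
theorem hasBigGenus_of_tripod (hE : IsFunctionField k E) (h : HasTripodMap k T) :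
    HasBigGenus k (maxOut k T : IntermediateField E (AlgebraicClosure E)) := by
  obtain ⟨t₀, ht₀, hu⟩ := h
  set t : AlgebraicClosure E := (t₀ : AlgebraicClosure E) with htdef
  have ht : Transcendental k t := fun h =>
    ht₀ (isIntegral_coeM.1 h.isIntegral).isAlgebraic
  obtain ⟨y, hy⟩ := IsAlgClosed.exists_pow_nat_eq (t * (t - 1)) (by norm_num : 0 < 5)
  have hA : FiniteDimensional E E⟮t⟯ :=
    IntermediateField.adjoin.finiteDimensional (Algebra.IsIntegral.isIntegral t)
  have hY : FiniteDimensional E E⟮y⟯ :=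
    IntermediateField.adjoin.finiteDimensional (Algebra.IsIntegral.isIntegral y)
  have htA : t ∈ E⟮t⟯ := IntermediateField.mem_adjoin_simple_self E t
  have hAM : E⟮t⟯ ≤ maxOut k T := IntermediateField.adjoin_simple_le_iff.2 t₀.2
  have hyM : y ∈ maxOut k T := by
    refine mem_maxOut_of_sameVal hAM y (fun W hW hWT => ?_)
    refine sameVal_root hW E⟮t⟯ (by norm_num : (5 : ℕ) ≠ 0) y _
      (mul_mem htA (sub_mem htA (one_mem _))) hy ⟨1, one_mem _, ?_⟩
    have hc : (W.comap (algebraMap (maxOut k T : IntermediateField E (AlgebraicClosure E))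
        (AlgebraicClosure E))).comap (algebraMap E _) =
        W.comap (algebraMap E (AlgebraicClosure E)) := by
      ext z
      rw [ValuationSubring.mem_comap, ValuationSubring.mem_comap, ValuationSubring.mem_comap,
        ← IsScalarTower.algebraMap_apply]
    obtain ⟨h1, h2, h3⟩ := hu _ (by rw [hc]; exact hW) (by rw [hc]; exact hWT)
    have h1' : t ∈ W := h1
    have h2' : t⁻¹ ∈ W := h2
    have h3' : (t - 1)⁻¹ ∈ W := h3
    have ht0 : t ≠ 0 := fun h => ht (h ▸ isAlgebraic_zero)
    have ht1 : t - 1 ≠ 0 := fun h => ht (sub_eq_zero.1 h ▸ isAlgebraic_one)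
    have hunit : ∀ z : AlgebraicClosure E, z ≠ 0 → z ∈ W → z⁻¹ ∈ W → W.valuation z = 1 := by
      intro z hz a b
      apply le_antisymm ((W.valuation_le_one_iff z).2 a)
      have h4 := (W.valuation_le_one_iff _).2 b
      rw [map_inv₀] at h4
      exact (inv_le_one₀ (zero_lt_iff.2 ((_root_.map_ne_zero _).2 hz))).1 h4
    rw [map_mul, hunit t ht0 h1' h2', hunit _ ht1 (sub_mem h1' W.one_mem) h3', map_one, one_pow,
      one_mul]
  have hfin : FiniteDimensional E (E⟮t⟯ ⊔ E⟮y⟯ : IntermediateField E (AlgebraicClosure E)) :=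
    IntermediateField.finiteDimensional_sup _ _
  have hchar : CharZero (constClosure k E) :=
    charZero_of_injective_algebraMap (algebraMap k (constClosure k E)).injective
  have ht' : Transcendental (constClosure k E) t := fun h => ht (h.restrictScalars k)
  obtain ⟨hcff, hg⟩ := quintic_subfield
    (inferInstance : IsAlgClosure k (constClosure k E)).isAlgClosed ht' hy
  refine ⟨E⟮t⟯ ⊔ E⟮y⟯, hfin, sup_le hAM (IntermediateField.adjoin_simple_le_iff.2 hyM),
    two_le_genus_of hE _ _ hg ?_⟩
  intro x hx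
  refine adjoin_mem_withConst _ _ ?_ hx
  rintro z (rfl | rfl)
  · exact (le_sup_left : E⟮t⟯ ≤ E⟮t⟯ ⊔ E⟮y⟯) htA
  · exact (le_sup_right : E⟮z⟯ ≤ E⟮t⟯ ⊔ E⟮z⟯) (IntermediateField.mem_adjoin_simple_self E z)

end out

end Vale.Agent.N025
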