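import Vale.Agent.N025.Defs
import Vale.Agent.P025.R2.H637.Place
import Vale.Agent.P025.R2.H855.FullDraft
import Vale.Agent.P025.R2.H898.FullG

/-! # The unique stable place on one level; the genus of the levels -/

open IntermediateField Polynomial

namespace Vale.Agent.N025

open Vale.Agent.P019P P025H720 P025H722 P025H851 P025H833 P025H505 P025H855 P025H641 P025H206
  P025H16

universe u v w

section proper

/-- for a proper curve of genus at least two a section has exactly one stable place -/
theorem stable_proper (p : ℕ) [Fact p.Prime] (k : Type u) [Field k] [Algebra ℚ_[p] k]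
    [FiniteDimensional ℚ_[p] k] (K : Type v) [Field K] [Algebra k K] [CharZero k]
    [CFF (constClosure k K) (geomField k K)] (hK : IsFunctionField k K)
    (hg : 2 ≤ gen (constClosure k K) (geomField k K)) (s : Section k K) :
    (∃ W : ValuationSubring (maxUnr k K), (∀ c : k, algebraMap k (maxUnr k K) c ∈ W) ∧ W ≠ ⊤ ∧
      ∀ σ, ∀ x ∈ W, s.toHom σ x ∈ W) ∧
    ∀ W₁ W₂ : ValuationSubring (maxUnr k K), (∀ c : k, algebraMap k (maxUnr k K) c ∈ W₁) →
      (∀ c : k, algebraMap k (maxUnr k K) c ∈ W₂) → W₁ ≠ ⊤ → W₂ ≠ ⊤ →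
      (∀ σ, ∀ x ∈ W₁, s.toHom σ x ∈ W₁) → (∀ σ, ∀ x ∈ W₂, s.toHom σ x ∈ W₂) → W₁ = W₂ := by
  have h1 : Algebra.IsAlgebraic ℚ_[p] k := inferInstance
  have h2 : Algebra.IsAlgebraic ℚ_[p] (constClosure k K) := constQpAlg
  have hmain : MainInput p k K :=
    P025H577.mainInput_of_III p k K hK hg (P025H898.stmtIII_Cp p (constClosure k K))
  have hpp : p.Prime := Fact.out
  obtain ⟨ζ, hζroot⟩ := IsAlgClosed.exists_root (cyclotomic p (AlgebraicClosure k))
    (degree_cyclotomic_pos p _ hpp.pos).ne'
  have hnz : NeZero ((p : ℕ) : AlgebraicClosure k) := ⟨by exact_mod_cast hpp.ne_zero⟩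
  have hζ : IsPrimitiveRoot ζ p := isRoot_cyclotomic_iff.1 hζroot
  have hintk : IsIntegral k ζ :=
    isIntegral_of_pow' hpp.pos (by rw [hζ.pow_eq_one]; exact isIntegral_one)
  have hfin1 : FiniteDimensional k k⟮ζ⟯ := IntermediateField.adjoin.finiteDimensional hintk
  have hfin2 : FiniteDimensional ℚ_[p] k⟮ζ⟯ := FiniteDimensional.trans ℚ_[p] k k⟮ζ⟯
  set z : k⟮ζ⟯ := ⟨ζ, IntermediateField.mem_adjoin_simple_self k ζ⟩ with hzdef
  have hz : IsPrimitiveRoot z p :=
    IsPrimitiveRoot.of_map_of_injective (f := k⟮ζ⟯.val) hζ Subtype.val_injective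
  have hgen : ∀ c : k⟮ζ⟯, ∃ P : k[X], aeval z P = c := by
    intro x
    have hx : (x : AlgebraicClosure k) ∈ Algebra.adjoin k {ζ} := by
      rw [← IntermediateField.adjoin_simple_toSubalgebra_of_isAlgebraic hintk.isAlgebraic]
      exact x.2
    rw [Algebra.adjoin_singleton_eq_range_aeval] at hx
    obtain ⟨P, hP⟩ := hx
    refine ⟨P, Subtype.ext ?_⟩
    have h1 : ((aeval z P : k⟮ζ⟯) : AlgebraicClosure k) = aeval ζ P :=
      (aeval_algHom_apply (k⟮ζ⟯).val z P).symm
    rw [h1]
    exact hP
  let e : k⟮ζ⟯ →ₐ[k] AlgebraicClosure K := IsAlgClosed.lift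
  let ι : k⟮ζ⟯ →+* maxUnr k K := (e : k⟮ζ⟯ →+* AlgebraicClosure K).codRestrict
    (maxUnr k K).toSubfield.toSubring (fun c => mem_maxUnr_of_const _
      ((Algebra.IsAlgebraic.isAlgebraic (R := k) c).isIntegral.map e))
  let _ : Algebra k⟮ζ⟯ (maxUnr k K) := ι.toAlgebra
  have htow : IsScalarTower k k⟮ζ⟯ (maxUnr k K) := IsScalarTower.of_algebraMap_eq (fun c => by
    apply Subtype.ext
    exact (e.commutes c).symm)
  obtain ⟨hc, hu⟩ := hmain s k⟮ζ⟯ z hz
  refine ⟨?_, fun W₁ W₂ h₁ h₂ t₁ t₂ s₁ s₂ =>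
    hu W₁ W₂ h₁ h₂ t₁ t₂ (fun σ _ => s₁ σ) (fun σ _ => s₂ σ)⟩
  obtain ⟨W, hW, hst⟩ := isGeometric_of s k⟮ζ⟯ hK hz hgen hc hu
  refine ⟨W, const_mem' W hW, ?_, (stabilizes_iff s W).1 hst⟩
  rintro rfl
  apply ratPlace_ne_top hW
  ext x
  simp [ValuationSubring.mem_comap]

end proper

section genus

/-- the genus grows under semilinear embeddings -/
theorem gen_le_semi {kb kb' F L : Type*} [Field kb] [Field kb'] [Field F] [Field L]
    [Algebra kb F] [Algebra kb' L] [CharZero kb] [CFF kb F] [CFF kb' L] (e₀ : kb ≃+* kb')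
    (φ : F →+* L) (h : ∀ a, φ (algebraMap kb F a) = algebraMap kb' L (e₀ a)) :
    gen kb F ≤ gen kb' L := by
  let _ : Algebra kb kb' := e₀.toRingHom.toAlgebra
  let _ : Algebra kb L := ((algebraMap kb' L).comp e₀.toRingHom).toAlgebra
  have htow : IsScalarTower kb kb' L := IsScalarTower.of_algebraMap_eq (fun _ => rfl)
  have hcff : CFF kb L := by
    obtain ⟨x, hx, hfin⟩ := CFF.ex (k := kb') (F := L)
    refine ⟨CFF.ac (k := kb) (F := F), x, hx.of_tower_top kb, ?_⟩
    have h1 : (kb'⟮x⟯).toSubfield = (kb⟮x⟯).toSubfield := by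
      rw [IntermediateField.adjoin_toSubfield, IntermediateField.adjoin_toSubfield]
      congr 2
      ext y
      constructor
      · rintro ⟨a, rfl⟩
        obtain ⟨b, rfl⟩ := e₀.surjective a
        exact ⟨b, rfl⟩
      · rintro ⟨a, rfl⟩
        exact ⟨e₀ a, rfl⟩
    refine Module.Finite.of_equiv_equiv (A₁ := kb'⟮x⟯) (B₁ := L)
      (RingEquiv.subfieldCongr h1) (RingEquiv.refl L) ?_
    ext y
    rfl
  have h1 : gen kb L = gen kb' L := gen_eq (RingEquiv.refl L) e₀ (fun _ => rfl)
  rw [← h1]
  exact gen_le_of_algHom { φ with commutes' := h }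

/-- the two notions of genus agree -/
theorem gen_le_genus {F : Type u} {L : Type v} [Field F] [Field L] [Algebra F L] [CFF F L] :
    (gen F L : ℕ∞) ≤ genus F L := by
  obtain ⟨D, hD⟩ := exists_dg_eq F L (dg (can F L) + 1)
  have h1 := RR_large (D := D) (by rw [hD]; exact lt_add_one _)
  have h2 : degD (F := F) (L := L) D = dg D := rfl
  have h3 : (degD (F := F) (L := L) D + 1 -
      Module.finrank F (RRSpace (F := F) (L := L) D)).toNat = gen F L := by
    rw [h2, rrSpace_eq, h1]
    simp
  rw [genus, ← h3]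
  exact le_iSup (fun D : Plc F L →₀ ℤ =>
    (((degD D + 1 - Module.finrank F (RRSpace D)).toNat : ℕ) : ℕ∞)) D

variable {k : Type u} {E : Type v} [Field k] [Field E] [Algebra k E]

/-- finite extensions of function fields -/
theorem funField_of_finite (hE : IsFunctionField k E) (K : Type w) [Field K] [Algebra k K]
    [Algebra E K] [IsScalarTower k E K] [FiniteDimensional E K] : IsFunctionField k K := by
  obtain ⟨x, hx, hfin⟩ := hE
  refine ⟨algebraMap E K x, (transcendental_algebraMap_iff (algebraMap E K).injective).2 hx, ?_⟩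
  have h0 : FiniteDimensional k⟮x⟯ K := FiniteDimensional.trans k⟮x⟯ E K
  let f : E →ₐ[k] K := IsScalarTower.toAlgHom k E K
  let e : k⟮x⟯ ≃ₐ[k] (k⟮x⟯.map f) := IntermediateField.equivMap k⟮x⟯ f
  have h1 : k⟮x⟯.map f = k⟮algebraMap E K x⟯ := by
    rw [IntermediateField.adjoin_map, Set.image_singleton]
    rfl
  rw [← h1]
  refine Module.Finite.of_equiv_equiv e.toRingEquiv (RingEquiv.refl K) ?_
  ext x
  rfl

/-- an isomorphism of the algebraic closures -/
noncomputable def psi (K : IntermediateField E (AlgebraicClosure E)) :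
    AlgebraicClosure K ≃ₐ[K] AlgebraicClosure E :=
  have _halg : Algebra.IsAlgebraic K (AlgebraicClosure E) :=
    Algebra.IsAlgebraic.tower_top (K := E) K
  have _hac : IsAlgClosure K (AlgebraicClosure E) := ⟨inferInstance, _halg⟩
  IsAlgClosure.equiv K (AlgebraicClosure K) (AlgebraicClosure E)

/-- the field generated by `K` and the constants -/
noncomputable def withConst (k : Type u) {E : Type v} [Field k] [Field E] [Algebra k E]
    (K : IntermediateField E (AlgebraicClosure E)) : IntermediateField K (AlgebraicClosure E) :=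
  IntermediateField.adjoin K {c : AlgebraicClosure E | IsIntegral k c}

lemma withConst_mono {A B : IntermediateField E (AlgebraicClosure E)} (hAB : A ≤ B)
    {x : AlgebraicClosure E} (hx : x ∈ withConst k A) : x ∈ withConst k B := by
  have h1 : withConst k A ≤
      Subfield.toIntermediateField (K := A) (withConst k B).toSubfield
        (fun a : A => IntermediateField.algebraMap_mem _
          (⟨(a : AlgebraicClosure E), hAB a.2⟩ : B)) := by
    rw [withConst, IntermediateField.adjoin_le_iff]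
    intro c hc
    exact IntermediateField.subset_adjoin B _ hc
  exact h1 hx

/-- elements generated by `K` and the constants come from `K k̄` -/
lemma symm_mem_geom (K : IntermediateField E (AlgebraicClosure E))
    (ψ : AlgebraicClosure K ≃ₐ[K] AlgebraicClosure E) {x : AlgebraicClosure E}
    (hx : x ∈ withConst k K) : ψ.symm x ∈ geomField k K := by
  have ht : IsScalarTower k K (AlgebraicClosure E) :=
    IsScalarTower.of_algebraMap_eq (fun _ => rfl)
  induction hx using IntermediateField.adjoin_induction with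
  | mem y hy =>
    have h1 : IsIntegral k (ψ.symm y) := IsIntegral.map
      ((ψ.symm : AlgebraicClosure E →ₐ[K] AlgebraicClosure K).restrictScalars k) hy
    exact (geomField k K).algebraMap_mem ⟨_, mem_algebraicClosure_iff.2 h1.isAlgebraic⟩
  | algebraMap c =>
    rw [AlgEquiv.commutes]
    exact IntermediateField.subset_adjoin _ _ ⟨c, rfl⟩
  | add y z _ _ h1 h2 => rw [map_add]; exact add_mem h1 h2
  | inv y _ h1 => rw [map_inv₀]; exact inv_mem h1
  | mul y z _ _ h1 h2 => rw [map_mul]; exact mul_mem h1 h2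

lemma psi_mem_withConst (K₀ K : IntermediateField E (AlgebraicClosure E))
    (h : ∀ x ∈ K₀, x ∈ withConst k K) (ψ₀ : AlgebraicClosure K₀ ≃ₐ[K₀] AlgebraicClosure E)
    {x : AlgebraicClosure K₀} (hx : x ∈ geomField k K₀) : ψ₀ x ∈ withConst k K := by
  have ht : IsScalarTower k K₀ (AlgebraicClosure E) :=
    IsScalarTower.of_algebraMap_eq (fun _ => rfl)
  induction hx using IntermediateField.adjoin_induction with
  | mem y hy =>
    obtain ⟨z, rfl⟩ := hy
    rw [AlgEquiv.commutes]
    exact h z z.2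
  | algebraMap c =>
    have h1 : IsIntegral k (ψ₀ (c : AlgebraicClosure K₀)) := IsIntegral.map
      ((ψ₀ : AlgebraicClosure K₀ →ₐ[K₀] AlgebraicClosure E).restrictScalars k)
      (mem_algebraicClosure_iff.1 c.2).isIntegral
    exact IntermediateField.subset_adjoin _ _ h1
  | add y z _ _ h1 h2 => rw [map_add]; exact add_mem h1 h2
  | inv y _ h1 => rw [map_inv₀]; exact inv_mem h1
  | mul y z _ _ h1 h2 => rw [map_mul]; exact mul_mem h1 h2

/-- the genus of a level -/
theorem gen_level [CharZero k] (K₀ K : IntermediateField E (AlgebraicClosure E))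
    (h : ∀ x ∈ K₀, x ∈ withConst k K) [CFF (constClosure k K₀) (geomField k K₀)]
    [CFF (constClosure k K) (geomField k K)] :
    gen (constClosure k K₀) (geomField k K₀) ≤ gen (constClosure k K) (geomField k K) := by
  let ψ₀ := psi K₀
  let ψ := psi K
  let φ : geomField k K₀ →+* geomField k K :=
    (((ψ.symm : AlgebraicClosure E →+* AlgebraicClosure K).comp
      (ψ₀ : AlgebraicClosure K₀ →+* AlgebraicClosure E)).comp
        (algebraMap (geomField k K₀) (AlgebraicClosure K₀))).codRestrict
      (geomField k K).toSubfield.toSubring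
      (fun x => symm_mem_geom K ψ (psi_mem_withConst K₀ K h ψ₀ x.2))
  have hchar : CharZero (constClosure k K₀) :=
    charZero_of_injective_algebraMap (algebraMap k (constClosure k K₀)).injective
  refine gen_le_semi ((constEquiv k K₀ ψ₀).trans (constEquiv k K ψ).symm).toRingEquiv φ ?_
  intro a
  apply Subtype.ext
  rfl

end genus

end Vale.Agent.N025
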