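import Vale.Agent.N025.Level

/-! # Sections for extensions closed under unramified extensions -/

open IntermediateField Polynomial

namespace Vale.Agent.N025

open Vale.Agent.P019P P025H855 P025H641 P025H206 Vale.Agent.P025.R2.H637

universe u v w

section closed

variable {k : Type u} {E : Type v} [Field k] [CharZero k] [Field E] [Algebra k E]
  {M : IntermediateField E (AlgebraicClosure E)}

/-- unramified extensions of finite levels lie in `M` -/
lemma IsUnrClosed.unr_mem (hM : IsUnrClosed k M) {K : IntermediateField E (AlgebraicClosure E)}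
    [FiniteDimensional E K] (hK : K ≤ M)
    (ψ : AlgebraicClosure K ≃ₐ[K] AlgebraicClosure E) (x : maxUnr k K) :
    ψ (x : AlgebraicClosure K) ∈ M := by
  obtain ⟨F, hF, hxF⟩ := exists_finUnr_mem x.2
  set B : IntermediateField K (AlgebraicClosure E) :=
    F.map (ψ : AlgebraicClosure K →ₐ[K] AlgebraicClosure E) with hB
  have hfin := hF.1
  have hfinB : FiniteDimensional K B :=
    LinearEquiv.finiteDimensional (IntermediateField.equivMap F _).toLinearEquiv
  set A : IntermediateField E (AlgebraicClosure E) := B.restrictScalars E with hA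
  have hfinA : FiniteDimensional E A := FiniteDimensional.trans E K B
  have hmemA : ψ (x : AlgebraicClosure K) ∈ A := ⟨x, hxF, rfl⟩
  have hKA : K ≤ A := fun y hy => B.algebraMap_mem ⟨y, hy⟩
  refine hM K A hfinA hKA hK ?_ hmemA
  intro V hV y
  obtain ⟨W, rfl⟩ := exists_val_extension (L := AlgebraicClosure E) V
  have hW : IsPlace k E (W.comap (algebraMap E (AlgebraicClosure E))) := by
    have h1 := hV.comap (F := E)
    have h2 : (W.comap (algebraMap A (AlgebraicClosure E))).comap (algebraMap E A) =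
        W.comap (algebraMap E (AlgebraicClosure E)) := by
      ext z
      rw [ValuationSubring.mem_comap, ValuationSubring.mem_comap, ValuationSubring.mem_comap,
        ← IsScalarTower.algebraMap_apply]
    rwa [h2] at h1
  obtain ⟨_, y', hy', rfl⟩ := y
  obtain ⟨z, hz, h3⟩ := unr_val ψ hF W hW y' hy'
  refine ⟨⟨z, hKA hz⟩, hz, ?_⟩
  rw [comap_sub_val_iff]
  exact h3

/-- the constants lie in `M` -/
lemma IsUnrClosed.constIn (hM : IsUnrClosed k M) : ConstIn k M := by
  intro x hx
  obtain ⟨F, hF, hxF⟩ := exists_finUnr_mem (mem_maxUnr_of_const (k := k) (K := E) x hx)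
  refine hM ⊥ F hF.1 bot_le bot_le ?_ hxF
  intro V hV y
  obtain ⟨z, hz⟩ := hF.2 V hV y
  exact ⟨algebraMap E F z, IntermediateField.mem_bot.2 ⟨z, rfl⟩, hz⟩

variable {s : Gal(constClosure k E/k) →* Gal(M/E)}

/-- each element of `M` is generated by elements fixed by the section and constants -/
lemma exists_fin_const [Normal E M] (hM : ConstIn k M) (hs : IsSecOf k M s) (x : M) :
    ∃ K : IntermediateField E (AlgebraicClosure E), FiniteDimensional E K ∧
      K ≤ IntermediateField.lift (FixM s) ∧ (x : AlgebraicClosure E) ∈ withConst k K := by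
  classical
  obtain ⟨I, c, hcint, -, hrep⟩ := exists_const_basisM hM hs
  obtain ⟨l, hl⟩ := hrep x
  let S : Finset (AlgebraicClosure E) := l.support.image (fun i => ((l i : M) : AlgebraicClosure E))
  set K : IntermediateField E (AlgebraicClosure E) := IntermediateField.adjoin E
    (S : Set (AlgebraicClosure E)) with hK
  have hKF : K ≤ IntermediateField.lift (FixM s) := by
    rw [hK, IntermediateField.adjoin_le_iff]
    intro y hy
    obtain ⟨i, -, rfl⟩ := Finset.mem_image.1 (Finset.mem_coe.1 hy)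
    exact (IntermediateField.mem_lift _).2 (l i).2
  refine ⟨K, ?_, hKF, ?_⟩
  · apply IntermediateField.finiteDimensional_adjoin
    intro y _
    exact Algebra.IsIntegral.isIntegral y
  · have h1 : (x : AlgebraicClosure E) = ∑ i ∈ l.support,
        ((l i : M) : AlgebraicClosure E) * (c i : AlgebraicClosure E) := by
      have h2 := congrArg (algebraMap M (AlgebraicClosure E)) hl
      rw [map_sum] at h2
      refine Eq.trans h2 (Finset.sum_congr rfl fun i _ => ?_)
      rw [map_mul]
      rfl
    rw [h1]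
    refine sum_mem (fun i hi => mul_mem ?_ ?_)
    · have h3 : ((l i : M) : AlgebraicClosure E) ∈ K :=
        IntermediateField.subset_adjoin E _ (Finset.mem_coe.2 (Finset.mem_image_of_mem _ hi))
      exact IntermediateField.algebraMap_mem _ (⟨_, h3⟩ : K)
    · exact IntermediateField.subset_adjoin K _ (isIntegral_coeM.2 (hcint i))

/-- finitely many elements -/
lemma exists_fin_const_finset [Normal E M] (hM : ConstIn k M) (hs : IsSecOf k M s)
    (S : Finset (AlgebraicClosure E)) (hS : ∀ x ∈ S, x ∈ M) :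
    ∃ K : IntermediateField E (AlgebraicClosure E), FiniteDimensional E K ∧
      K ≤ IntermediateField.lift (FixM s) ∧ ∀ x ∈ S, x ∈ withConst k K := by
  classical
  induction S using Finset.induction_on with
  | empty => exact ⟨⊥, inferInstance, bot_le, by simp⟩
  | insert a S _ ih =>
    obtain ⟨F₁, h₁, l₁, hm₁⟩ := ih (fun x hx => hS x (Finset.mem_insert_of_mem hx))
    obtain ⟨F₂, h₂, l₂, hm₂⟩ := exists_fin_const hM hs ⟨a, hS a (Finset.mem_insert_self _ _)⟩
    refine ⟨F₁ ⊔ F₂, IntermediateField.finiteDimensional_sup _ _, sup_le l₁ l₂, fun x hx => ?_⟩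
    rcases Finset.mem_insert.1 hx with rfl | hx
    · exact withConst_mono le_sup_right hm₂
    · exact withConst_mono le_sup_left (hm₁ x hx)

/-- a finite extension lies in a level over the constants -/
lemma exists_level [Normal E M] (hM : ConstIn k M) (hs : IsSecOf k M s)
    (A : IntermediateField E (AlgebraicClosure E)) [FiniteDimensional E A] (hA : A ≤ M) :
    ∃ K : IntermediateField E (AlgebraicClosure E), FiniteDimensional E K ∧
      K ≤ IntermediateField.lift (FixM s) ∧ ∀ x ∈ A, x ∈ withConst k K := by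
  obtain ⟨S, hS⟩ := IntermediateField.fg_of_fg_toSubalgebra A
    (Subalgebra.fg_of_fg_toSubmodule (Module.Finite.iff_fg.1 (inferInstance : Module.Finite E A)))
  obtain ⟨K, h1, h2, h3⟩ := exists_fin_const_finset hM hs S (by
    intro x hx
    apply hA
    rw [← hS]
    exact IntermediateField.subset_adjoin E _ hx)
  refine ⟨K, h1, h2, ?_⟩
  have h4 : A ≤ (withConst k K).restrictScalars E := by
    rw [← hS, IntermediateField.adjoin_le_iff]
    exact h3
  exact h4

variable {K K' : IntermediateField E (AlgebraicClosure E)}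
  {ψ : AlgebraicClosure K ≃ₐ[K] AlgebraicClosure E}
  {ψ' : AlgebraicClosure K' ≃ₐ[K'] AlgebraicClosure E}

/-- the images of the maximal unramified extensions grow with the level -/
lemma range_mono (D : TransData k M s K ψ) (D' : TransData k M s K' ψ') (h : K ≤ K')
    (x : maxUnr k K) : ∃ y : maxUnr k K', D'.toM y = D.toM x := by
  let _ : Algebra K K' := (IntermediateField.inclusion h).toRingHom.toAlgebra
  have t1 : IsScalarTower k K K' := IsScalarTower.of_algebraMap_eq (fun _ => rfl)
  let j : AlgebraicClosure K →ₐ[K] AlgebraicClosure K' :=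
    { (ψ'.symm : AlgebraicClosure E →+* AlgebraicClosure K').comp
        (ψ : AlgebraicClosure K →+* AlgebraicClosure E) with
      commutes' := fun c => by
        show ψ'.symm (ψ (algebraMap K (AlgebraicClosure K) c)) = _
        rw [AlgEquiv.commutes]
        exact ψ'.symm.commutes (algebraMap K K' c) }
  refine ⟨⟨j x, push_mem j x.2⟩, Subtype.ext ?_⟩
  rw [D'.toM_coe, D.toM_coe]
  exact ψ'.apply_symm_apply _

lemma toM_surj_const (D : TransData k M s K ψ) (x : M)
    (hx : (x : AlgebraicClosure E) ∈ withConst k K) : ∃ y, D.toM y = x := by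
  refine ⟨⟨ψ.symm x, P025H577.mem_maxUnr_of_geom _ (symm_mem_geom K ψ hx)⟩, Subtype.ext ?_⟩
  rw [D.toM_coe]
  exact ψ.apply_symm_apply _

lemma toM_algebraMap (D : TransData k M s K ψ) (c : k) :
    D.toM (algebraMap k (maxUnr k K) c) = algebraMap k M c := by
  apply Subtype.ext
  rw [D.toM_coe]
  exact ψ.commutes (algebraMap k K c)

lemma toM_base (D : TransData k M s K ψ) (e : E) :
    D.toM (algebraMap K (maxUnr k K) (algebraMap E K e)) = algebraMap E M e := by
  apply Subtype.ext
  rw [D.toM_coe]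
  exact ψ.commutes (algebraMap E K e)

/-- a subring of `M` which is a stable valuation ring on the image of the maximal unramified
extension of a level -/
structure IsGood (D : TransData k M s K ψ) (R : Subring M) : Prop where
  val : ∀ x, D.toM x ∈ R ∨ (D.toM x)⁻¹ ∈ R
  const : ∀ c : k, algebraMap k M c ∈ R
  stab : ∀ σ, ∀ x ∈ R, s σ x ∈ R
  ne : ∃ e : E, algebraMap E M e ∉ R

lemma IsGood.mono {D : TransData k M s K ψ} {D' : TransData k M s K' ψ'} (h : K ≤ K')
    {R : Subring M} (hR : IsGood D' R) : IsGood D R := by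
  refine ⟨fun x => ?_, hR.const, hR.stab, hR.ne⟩
  obtain ⟨y, hy⟩ := range_mono D D' h x
  rw [← hy]
  exact hR.val y

/-- the valuation ring of the level -/
noncomputable def IsGood.pull {D : TransData k M s K ψ} {R : Subring M} (hR : IsGood D R) :
    ValuationSubring (maxUnr k K) :=
  { R.comap D.toM with
    mem_or_inv_mem' := fun x => by
      rcases hR.val x with h | h
      · exact Or.inl h
      · right
        show D.toM x⁻¹ ∈ R
        rw [map_inv₀]
        exact h }

lemma IsGood.mem_pull {D : TransData k M s K ψ} {R : Subring M} (hR : IsGood D R)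
    (x : maxUnr k K) : x ∈ hR.pull ↔ D.toM x ∈ R := Iff.rfl

end closed

section mk

variable {k : Type u} {K : Type v} [Field k] [Field K] [Algebra k K]

/-- sections from homomorphisms -/
noncomputable def mkSection (s : Gal(constClosure k K/k) →* Gal(maxUnr k K/K))
    (hs : IsSection k K s) : Section k K where
  hom := s
  cont := hs.continuous
  lifts := by
    rintro σ x y ⟨x', rfl, rfl⟩ hx
    exact ⟨⟨x', hx⟩, rfl, (hs.lifts σ x' ⟨x', hx⟩ rfl).symm⟩

end mk

section limit

/-- limits of valuation rings on an increasing family of sets -/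
lemma exists_limit_val {M : Type v} [Field M] {ι : Type w} [Preorder ι] [IsDirected ι (· ≤ ·)]
    [Nonempty ι] (W : ι → Subring M) (D : ι → Set M) (hD : Monotone D)
    (hDM : ∀ x, ∃ i, x ∈ D i) (hW : ∀ i, ∀ x ∈ D i, x ∈ W i ∨ x⁻¹ ∈ W i) :
    ∃ O : ValuationSubring M, (∀ x, (∀ i, x ∈ W i) → x ∈ O) ∧ (∀ x, (∀ i, x ∉ W i) → x ∉ O) ∧
      ∀ g : M → M, (∀ i, ∀ x ∈ W i, g x ∈ W i) → ∀ x ∈ O, g x ∈ O := by
  classical
  let U : Ultrafilter ι := Ultrafilter.of Filter.atTop
  have hU : (U : Filter ι) ≤ Filter.atTop := Ultrafilter.of_le _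
  let O : ValuationSubring M :=
    { carrier := {x | ∀ᶠ i in (U : Filter ι), x ∈ W i}
      mul_mem' := fun ha hb => (ha.and hb).mono (fun i h => (W i).mul_mem h.1 h.2)
      one_mem' := Filter.Eventually.of_forall (fun i => (W i).one_mem)
      add_mem' := fun ha hb => (ha.and hb).mono (fun i h => (W i).add_mem h.1 h.2)
      zero_mem' := Filter.Eventually.of_forall (fun i => (W i).zero_mem)
      neg_mem' := fun ha => ha.mono (fun i h => (W i).neg_mem h)
      mem_or_inv_mem' := by
        intro x
        obtain ⟨i₀, hi₀⟩ := hDM x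
        have h1 : ∀ᶠ i in (U : Filter ι), x ∈ W i ∨ x⁻¹ ∈ W i := by
          apply hU
          filter_upwards [Filter.eventually_ge_atTop i₀] with i hi
          exact hW i x (hD hi hi₀)
        exact Ultrafilter.eventually_or.1 h1 }
  refine ⟨O, fun x hx => Filter.Eventually.of_forall hx, fun x hx h => ?_, fun g hg x hx => ?_⟩
  · obtain ⟨i, hi⟩ := Filter.Eventually.exists h
    exact hx i hi
  · exact Filter.Eventually.mono hx (fun i h => hg i x h)

end limit

section main

variable (p : ℕ) [Fact p.Prime] {k : Type u} {E : Type v} [Field k] [CharZero k]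
  [Algebra ℚ_[p] k] [FiniteDimensional ℚ_[p] k] [Field E] [Algebra k E]
  {M : IntermediateField E (AlgebraicClosure E)}
  {s : Gal(constClosure k E/k) →* Gal(M/E)}

include p in
/-- one level: existence and uniqueness -/
theorem good_level (hE : IsFunctionField k E) (hs : IsSecOf k M s)
    {K : IntermediateField E (AlgebraicClosure E)} [FiniteDimensional E K]
    {ψ : AlgebraicClosure K ≃ₐ[K] AlgebraicClosure E} (D : TransData k M s K ψ)
    [CFF (constClosure k K) (geomField k K)] (hg : 2 ≤ gen (constClosure k K) (geomField k K)) :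
    (∃ R : Subring M, IsGood D R) ∧ ∀ R₁ R₂ : Subring M, IsGood D R₁ → IsGood D R₂ →
      ∀ x, D.toM x ∈ R₁ ↔ D.toM x ∈ R₂ := by
  have hK : IsFunctionField k K := funField_of_finite hE K
  obtain ⟨⟨W, hWk, hWtop, hWst⟩, huniq⟩ :=
    stable_proper p k K hK hg (mkSection D.trans (D.isSection hs))
  constructor
  · refine ⟨W.toSubring.map D.toM, fun x => ?_, fun c => ?_, ?_, ?_⟩
    · rcases W.mem_or_inv_mem x with h | h
      · exact Or.inl ⟨x, h, rfl⟩
      · exact Or.inr ⟨x⁻¹, h, map_inv₀ _ _⟩
    · exact ⟨_, hWk c, toM_algebraMap D c⟩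
    · rintro σ _ ⟨y, hy, rfl⟩
      obtain ⟨σ', hσ'⟩ : ∃ σ' : Gal(constClosure k K/k), conjC K ψ σ' = σ :=
        (AlgEquiv.autCongr (constEquiv k K ψ)).surjective σ
      rw [← hσ']
      exact ⟨D.trans σ' y, hWst σ' y hy, D.toM_trans σ' y⟩
    · by_contra hcon
      push Not at hcon
      apply hWtop
      rw [eq_top_iff]
      intro y _
      have hKW : ∀ c : K, algebraMap K (maxUnr k K) c ∈ W := by
        intro c
        refine (W.comap (algebraMap K (maxUnr k K))).toSubring.mem_carrier.1 ?_
        refine mem_of_integral (W.comap (algebraMap K (maxUnr k K))) (L := E) (fun e => ?_) c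
          (Algebra.IsIntegral.isIntegral c)
        obtain ⟨z, hz, hze⟩ := hcon e
        rw [← toM_base D e] at hze
        rw [ValuationSubring.mem_comap, ← D.toM_injective hze]
        exact hz
      exact mem_of_integral W hKW y (Algebra.IsIntegral.isIntegral y)
  · intro R₁ R₂ h₁ h₂ x
    have key : ∀ {R : Subring M} (h : IsGood D R),
        (∀ c : k, algebraMap k (maxUnr k K) c ∈ h.pull) ∧ h.pull ≠ ⊤ ∧
          ∀ σ, ∀ x ∈ h.pull, D.trans σ x ∈ h.pull := by
      intro R h
      refine ⟨fun c => ?_, fun htop => ?_, fun σ x hx => ?_⟩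
      · rw [h.mem_pull, toM_algebraMap]
        exact h.const c
      · obtain ⟨e, he⟩ := h.ne
        apply he
        rw [← toM_base D e, ← h.mem_pull, htop]
        exact ValuationSubring.mem_top _
      · rw [h.mem_pull] at hx ⊢
        rw [D.toM_trans]
        exact h.stab _ _ hx
    obtain ⟨a₁, b₁, c₁⟩ := key h₁
    obtain ⟨a₂, b₂, c₂⟩ := key h₂
    have h3 := huniq _ _ a₁ a₂ b₁ b₂ c₁ c₂
    rw [← h₁.mem_pull, ← h₂.mem_pull, h3]

include p in
/-- **Existence and uniqueness of the stable place.** -/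
theorem exists_unique_stable [Normal E M] (hE : IsFunctionField k E) (hM : IsUnrClosed k M)
    (hbig : HasBigGenus k M) (hs : IsSecOf k M s) :
    ∃! W : ValuationSubring M, W ≠ ⊤ ∧ (∀ c : k, algebraMap k M c ∈ W) ∧
      ∀ σ, ∀ x ∈ W, s σ x ∈ W := by
  classical
  have hC := hM.constIn
  obtain ⟨A, hA, hAM, hAg⟩ := hbig
  obtain ⟨K₀, hK₀, hK₀F, hAK₀⟩ := exists_level hC hs A hAM
  set F : IntermediateField E (AlgebraicClosure E) := IntermediateField.lift (FixM s) with hFdef
  have hF : ∀ y : M, (y : AlgebraicClosure E) ∈ F ↔ ∀ σ, s σ y = y := by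
    intro y
    rw [← mem_fixM]
    exact IntermediateField.mem_lift y
  have hFM : F ≤ M := IntermediateField.lift_le _
  let ι := {K : IntermediateField E (AlgebraicClosure E) // FiniteDimensional E K ∧ K₀ ≤ K ∧ K ≤ F}
  let i₀ : ι := ⟨K₀, hK₀, le_rfl, hK₀F⟩
  have hne : Nonempty ι := ⟨i₀⟩
  have hdir : IsDirected ι (· ≤ ·) := by
    refine ⟨fun A B => ?_⟩
    have hA := A.2.1
    have hB := B.2.1
    exact ⟨⟨A.1 ⊔ B.1, IntermediateField.finiteDimensional_sup _ _,
      A.2.2.1.trans le_sup_left, sup_le A.2.2.2 B.2.2.2⟩,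
      (le_sup_left : A.1 ≤ A.1 ⊔ B.1), (le_sup_right : B.1 ≤ A.1 ⊔ B.1)⟩
  have D : ∀ i : ι, TransData k M s i.1 (psi i.1) := fun i =>
    have := i.2.1
    ⟨i.2.2.2.trans hFM, fun y hy => (hF y).1 (i.2.2.2 hy),
      hM.unr_mem (i.2.2.2.trans hFM) (psi i.1)⟩
  have hlev : ∀ i : ι, (∃ R : Subring M, IsGood (D i) R) ∧ ∀ R₁ R₂ : Subring M,
      IsGood (D i) R₁ → IsGood (D i) R₂ → ∀ x, (D i).toM x ∈ R₁ ↔ (D i).toM x ∈ R₂ := by
    intro i
    have := i.2.1
    have c1 := cff_geomField (funField_of_finite hE A)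
    have c2 := cff_geomField (funField_of_finite hE i.1)
    have h1 : 2 ≤ gen (constClosure k A) (geomField k A) := by
      have h2 := hAg.trans (genus_le_gen (F := constClosure k A) (L := geomField k A))
      exact_mod_cast h2
    exact good_level p hE hs (D i)
      (h1.trans (gen_level A i.1 (fun x hx => withConst_mono i.2.2.1 (hAK₀ x hx))))
  have hall : ∀ x : M, ∃ i : ι, (x : AlgebraicClosure E) ∈ withConst k i.1 := by
    intro x
    obtain ⟨K, hK, hKF, hx⟩ := exists_fin_const hC hs x
    exact ⟨⟨K₀ ⊔ K, IntermediateField.finiteDimensional_sup _ _, le_sup_left,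
      sup_le hK₀F hKF⟩, withConst_mono le_sup_right hx⟩
  choose R hR using fun i => (hlev i).1
  obtain ⟨e₀, he₀⟩ := (hR i₀).ne
  have he : ∀ i, algebraMap E M e₀ ∉ R i := by
    intro i hi
    apply he₀
    have h1 := (hlev i₀).2 (R i) (R i₀) ((hR i).mono i.2.2.1) (hR i₀)
      (algebraMap K₀ (maxUnr k K₀) (algebraMap E K₀ e₀))
    rw [toM_base] at h1
    exact h1.1 hi
  obtain ⟨O, hO1, hO2, hO3⟩ := exists_limit_val R
    (fun i => {x : M | (x : AlgebraicClosure E) ∈ withConst k i.1})
    (fun i j hij x hx => withConst_mono (A := i.1) (B := j.1) hij hx) hall (by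
      intro i x hx
      obtain ⟨y, rfl⟩ := toM_surj_const (D i) x hx
      exact (hR i).val y)
  have hgood : ∀ (W : ValuationSubring M), (W ≠ ⊤ ∧ (∀ c : k, algebraMap k M c ∈ W) ∧
      ∀ σ, ∀ x ∈ W, s σ x ∈ W) → ∀ i, IsGood (D i) W.toSubring := by
    rintro W ⟨h1, h2, h3⟩ i
    refine ⟨fun x => W.mem_or_inv_mem _, h2, h3, ?_⟩
    by_contra hcon
    push Not at hcon
    apply h1
    rw [eq_top_iff]
    intro y _
    exact mem_of_integral W (L := E) hcon y (Algebra.IsIntegral.isIntegral y)
  have hO : O ≠ ⊤ ∧ (∀ c : k, algebraMap k M c ∈ O) ∧ ∀ σ, ∀ x ∈ O, s σ x ∈ O := by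
    refine ⟨?_, fun c => hO1 _ (fun i => (hR i).const c),
      fun σ => hO3 (fun z => s σ z) (fun i z hz => (hR i).stab σ z hz)⟩
    rintro rfl
    exact hO2 _ he (ValuationSubring.mem_top _)
  refine ⟨O, hO, fun W hW => ?_⟩
  ext x
  obtain ⟨i, hi⟩ := hall x
  obtain ⟨y, rfl⟩ := toM_surj_const (D i) x hi
  exact (hlev i).2 _ _ (hgood W hW i) (hgood O hO i) y

omit [CharZero k] in
lemma isStablePlace_iff (s : SecOf k M) (W : ValuationSubring M) :
    IsStablePlace s W ↔ W ≠ ⊤ ∧ (∀ c : k, algebraMap k M c ∈ W) ∧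
      ∀ σ, ∀ x ∈ W, s.toHom σ x ∈ W := by
  refine and_congr Iff.rfl (and_congr Iff.rfl ⟨fun h σ x hx => h σ x _ ⟨x, rfl, rfl⟩ hx, ?_⟩)
  rintro h σ x y ⟨x', hx', hy⟩ hx
  have h1 : x' = x := Subtype.ext hx'
  have h2 : s.toHom σ x' = y := Subtype.ext hy
  rw [← h2, h1]
  exact h σ x hx

include p in
/-- **The section conjecture for `Gal(M / E)`.** -/
theorem section_conjecture [Normal E M] (hE : IsFunctionField k E) (hM : IsUnrClosed k M)
    (hbig : HasBigGenus k M) (s : SecOf k M) :
    (∃! W : ValuationSubring M, IsStablePlace s W) ∧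
      ∀ W : ValuationSubring M, IsStablePlace s W →
        IsRatPlace k E (W.comap (algebraMap E M)) := by
  constructor
  · simp only [isStablePlace_iff]
    exact exists_unique_stable p hE hM hbig s.isSecOf
  · intro W hW
    obtain ⟨h1, h2, h3⟩ := (isStablePlace_iff s W).1 hW
    exact ratPlace_of_stable hM.constIn s.isSecOf hE W h2 h1 h3

end main

end Vale.Agent.N025
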