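import Vale.Agent.N025.Hyper
import Vale.Agent.P025.R2.H637.Crit2
import Vale.Agent.P025.R2.H725.Genus

/-! # Hyperbolic curves of genus zero and one -/

open IntermediateField Polynomial

namespace Vale.Agent.N025

open Vale.Agent.P019P P025H855 P025H641 P025H492 Vale.Agent.P025.R2.H637

universe u v w

section small

variable {kb L : Type*} [Field kb] [Field L] [Algebra kb L] [CFF kb L]

/-- a function with a pole at one place only -/
lemma exists_pole_only (P₀ : Plk kb L) (hg : gen kb L ≤ 1) :
    ∃ x : L, (∀ a : kb, x ≠ algebraMap kb L a) ∧ (∀ P, P ≠ P₀ → 0 ≤ ord P x) ∧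
      Module.finrank kb⟮x⟯ L ≤ gen kb L + 1 := by
  classical
  set D : Plk kb L →₀ ℤ := Finsupp.single P₀ ((gen kb L : ℤ) + 1) with hD
  have hdg : dg D = gen kb L + 1 := dg_sgl _ _
  have h1 := RR D
  rw [hdg] at h1
  have h2 : 2 ≤ Module.finrank kb (LL kb D) := by omega
  obtain ⟨t, ht, htc⟩ : ∃ t ∈ LL kb D, ∀ a : kb, t ≠ algebraMap kb L a := by
    by_contra hcon
    push Not at hcon
    have h3 : LL kb D ≤ Submodule.span kb {(1 : L)} := by
      intro t ht
      obtain ⟨a, ha⟩ := hcon t ht
      rw [Submodule.mem_span_singleton]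
      exact ⟨a, by rw [ha, Algebra.smul_def, mul_one]⟩
    have h4 := Submodule.finrank_mono h3
    have h5 : Module.finrank kb (Submodule.span kb {(1 : L)}) ≤ 1 := by
      have := finrank_span_le_card (R := kb) ({(1 : L)} : Set L)
      simpa using this
    omega
  have ht0 : t ≠ 0 := fun h0 => htc 0 (by rw [h0, map_zero])
  have hall := (mem_LL.1 ht).resolve_left ht0
  refine ⟨t, htc, fun P hP => ?_, ?_⟩
  · have h4 := hall P
    rw [hD, Finsupp.single_eq_of_ne hP] at h4
    omega
  · have h3 : pol kb t ≤ D := by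
      intro Q
      rw [pol_apply]
      have h4 := hall Q
      have h5 : 0 ≤ D Q := by
        rw [hD, Finsupp.single_apply]
        split_ifs <;> omega
      omega
    have h4 := dg_mono h3
    rw [dg_pol htc, hdg] at h4
    exact_mod_cast h4

/-- orders in a fibre -/
lemma ord_add_le {x : L} (hx : ∀ a : kb, x ≠ algebraMap kb L a) (c : kb) {P Q : Plk kb L}
    (hPQ : P ≠ Q) (hP : 0 < ord P (x - algebraMap kb L c))
    (hQ : 0 < ord Q (x - algebraMap kb L c)) :
    ord P (x - algebraMap kb L c) + ord Q (x - algebraMap kb L c) ≤ Module.finrank kb⟮x⟯ L := by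
  classical
  rw [← fib_sum hx c, ← Finset.sum_pair (f := fun R => ord R (x - algebraMap kb L c)) hPQ]
  refine Finset.sum_le_sum_of_subset_of_nonneg ?_ ?_
  · intro R hR
    rw [Set.Finite.mem_toFinset]
    rcases Finset.mem_insert.1 hR with rfl | hR
    · exact hP
    · rw [Finset.mem_singleton.1 hR]
      exact hQ
  · intro R hR _
    rw [Set.Finite.mem_toFinset] at hR
    exact le_of_lt hR

lemma ord_le_deg {x : L} (hx : ∀ a : kb, x ≠ algebraMap kb L a) (c : kb) (P : Plk kb L) :
    ord P (x - algebraMap kb L c) ≤ Module.finrank kb⟮x⟯ L := by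
  classical
  by_cases hP : 0 < ord P (x - algebraMap kb L c)
  · rw [← fib_sum hx c]
    refine Finset.single_le_sum (f := fun R => ord R (x - algebraMap kb L c)) ?_ ?_
    · intro R hR
      rw [Set.Finite.mem_toFinset] at hR
      exact le_of_lt hR
    · rw [Set.Finite.mem_toFinset]
      exact hP
  · omega

lemma exists_value {x : L} (hx : ∀ a : kb, x ≠ algebraMap kb L a) {P : Plk kb L}
    (hP : 0 ≤ ord P x) : ∃ c : kb, 0 < ord P (x - algebraMap kb L c) := by
  obtain ⟨c, hc⟩ := exists_cst P ((mem_iff_ord P x).2 (Or.inr hP))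
  exact ⟨c, hc.resolve_left (hx c)⟩

lemma ord_sub_nonneg {x : L} (hx : ∀ a : kb, x ≠ algebraMap kb L a) {P : Plk kb L}
    (hP : 0 ≤ ord P x) (c : kb) : 0 ≤ ord P (x - algebraMap kb L c) := by
  have h1 : x - algebraMap kb L c ∈ P.1 :=
    sub_mem ((mem_iff_ord P x).2 (Or.inr hP)) (P.2.1 c)
  exact ((mem_iff_ord P _).1 h1).resolve_left (sub_ne_zero.2 (hx c))

/-- genus zero: a function with divisor supported at three given places, and so for `t - 1` -/
theorem genus_zero (hg : gen kb L = 0) {P₀ P₁ P₂ : Plk kb L} (h01 : P₀ ≠ P₁) (h02 : P₀ ≠ P₂)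
    (h12 : P₁ ≠ P₂) : ∃ t : L, (∀ a : kb, t ≠ algebraMap kb L a) ∧
      ∀ P, P ≠ P₀ → P ≠ P₁ → P ≠ P₂ → ord P t = 0 ∧ ord P (t - 1) = 0 := by
  obtain ⟨x, hx, hreg, hdeg⟩ := exists_pole_only P₀ (by omega)
  rw [hg] at hdeg
  have hdeg' : (Module.finrank kb⟮x⟯ L : ℤ) ≤ 1 := by exact_mod_cast hdeg
  obtain ⟨c₁, hc₁⟩ := exists_value hx (hreg P₁ h01.symm)
  obtain ⟨c₂, hc₂⟩ := exists_value hx (hreg P₂ h02.symm)
  have hne : c₂ - c₁ ≠ 0 := by
    intro h
    rw [sub_eq_zero.1 h] at hc₂
    have := ord_add_le hx c₁ h12 hc₁ hc₂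
    omega
  have hne' : algebraMap kb L (c₂ - c₁) ≠ 0 := (_root_.map_ne_zero _).2 hne
  have key : ∀ (c : kb) (Q P : Plk kb L), 0 < ord Q (x - algebraMap kb L c) → P ≠ P₀ → P ≠ Q →
      ord P ((x - algebraMap kb L c) * (algebraMap kb L (c₂ - c₁))⁻¹) = 0 := by
    intro c Q P hQ h0 h1
    rw [ord_mul P (sub_ne_zero.2 (hx c)) (inv_ne_zero hne'), ord_inv, ord_const]
    have h2 := ord_sub_nonneg hx (hreg P h0) c
    by_contra hcon
    have := ord_add_le hx c h1 (by omega) hQ
    omega
  refine ⟨(x - algebraMap kb L c₁) * (algebraMap kb L (c₂ - c₁))⁻¹, fun a h => ?_,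
    fun P h0 h1 h2 => ⟨key c₁ P₁ P hc₁ h0 h1, ?_⟩⟩
  · apply hx (c₁ + a * (c₂ - c₁))
    rw [map_add, map_mul, ← h, inv_mul_cancel_right₀ hne']
    ring
  · have h3 : (x - algebraMap kb L c₁) * (algebraMap kb L (c₂ - c₁))⁻¹ - 1 =
        (x - algebraMap kb L c₂) * (algebraMap kb L (c₂ - c₁))⁻¹ := by
      rw [← mul_inv_cancel₀ hne', map_sub]
      ring
    rw [h3]
    exact key c₂ P₂ P hc₂ h0 h2

/-- genus one: the three finite branch points of a function of degree two -/
theorem genus_one [CharZero kb] (hg : gen kb L = 1) (P₀ : Plk kb L) :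
    ∃ x : L, (∀ a : kb, x ≠ algebraMap kb L a) ∧ (∀ P, P ≠ P₀ → 0 ≤ ord P x) ∧
      ∃ e : Fin 3 → kb, Function.Injective e ∧ ∀ i, ∃ π : L, π ≠ 0 ∧ ∀ P, P ≠ P₀ →
        ord P (x - algebraMap kb L (e i)) = 0 ∨
          ord P (x - algebraMap kb L (e i)) = 2 * ord P π := by
  classical
  obtain ⟨x, hx, hreg, hdeg⟩ := exists_pole_only P₀ (by omega)
  have c1 : CFF kb kb⟮x⟯ := cff_adjoin hx
  have hfin : FiniteDimensional kb⟮x⟯ L := (finite_of_notMem hx).2
  have hpos : 0 < Module.finrank kb⟮x⟯ L := Module.finrank_pos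
  have hn : Module.finrank kb⟮x⟯ L = 2 := by
    by_contra hcon
    have := P025H725.gen_eq_zero_of_finrank_eq_one hx (by omega)
    omega
  have hg0 : gen kb kb⟮x⟯ = 0 :=
    P025H725.gen_eq_zero_of_finrank_eq_one (gen_nc hx) (finrank_gen x)
  have hRH := riemann_hurwitz kb kb⟮x⟯ L
  rw [hg, hg0, hn] at hRH
  set R := ramDiv kb kb⟮x⟯ L with hR
  have hram : ∀ P : Plk kb L, (ram kb⟮x⟯ P : ℤ) ≤ 2 := by
    intro P
    by_cases hP : 0 ≤ ord P x
    · obtain ⟨c, hc⟩ := exists_value hx hP
      have h1 := ord_le_deg hx c P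
      rw [ord_sub_eq_ram hx hc, hn] at h1
      exact_mod_cast h1
    · have h1 := ord_eq_neg_ram hx (P := P) (by omega)
      have h2 := ord_le_deg (nc_inv hx) 0 P
      rw [map_zero, sub_zero, ord_inv, cDeg_finrank_inv, hn] at h2
      omega
  have hcard : 4 ≤ R.support.card := by
    have h1 : dg R ≤ R.support.card := by
      rw [dg_eq_sum (S := R.support) (fun P hP => Finsupp.notMem_support_iff.1 hP),
        Finset.card_eq_sum_ones, Nat.cast_sum]
      refine Finset.sum_le_sum (fun P _ => ?_)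
      have := hram P
      rw [hR, ramDiv_apply]
      push_cast
      omega
    omega
  have hcard' : 3 ≤ (R.support.erase P₀).card := by
    have := Finset.pred_card_le_card_erase (s := R.support) (a := P₀)
    omega
  obtain ⟨S, hS, hS3⟩ := Finset.exists_subset_card_eq hcard'
  let Q : Fin 3 → Plk kb L := fun i => (S.equivFinOfCardEq hS3).symm i
  have hQinj : Function.Injective Q := fun i j h =>
    (S.equivFinOfCardEq hS3).symm.injective (Subtype.ext h)
  have hQ : ∀ i, Q i ≠ P₀ ∧ ∃ c : kb, ord (Q i) (x - algebraMap kb L c) = 2 := by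
    intro i
    have h1 := Finset.mem_erase.1 (hS ((S.equivFinOfCardEq hS3).symm i).2)
    refine ⟨h1.1, ?_⟩
    obtain ⟨c, hc⟩ := exists_value hx (hreg (Q i) h1.1)
    refine ⟨c, ?_⟩
    have h2 : R (Q i) ≠ 0 := Finsupp.mem_support_iff.1 h1.2
    rw [hR, ramDiv_apply] at h2
    have h3 := hram (Q i)
    have h4 := ram_pos (K := kb⟮x⟯) (Q i)
    rw [ord_sub_eq_ram hx hc]
    omega
  choose hQ0 e he using hQ
  have hother : ∀ i P, P ≠ Q i → ¬ 0 < ord P (x - algebraMap kb L (e i)) := by
    intro i P hP h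
    have h1 := ord_add_le hx (e i) hP h (by rw [he i]; norm_num)
    rw [he i, hn] at h1
    omega
  refine ⟨x, hx, hreg, e, fun i j hij => ?_, fun i => ?_⟩
  · by_contra hne
    refine hother i (Q j) (fun h => hne (hQinj h).symm) ?_
    rw [hij, he j]
    norm_num
  · obtain ⟨π, hπ0, hπ⟩ := exists_unif (Q i)
    refine ⟨π, hπ0, fun P hP => ?_⟩
    by_cases h : P = Q i
    · right
      rw [h, he i, hπ]
      norm_num
    · left
      have h1 := hother i P h
      have h2 := ord_sub_nonneg hx (hreg P hP) (e i)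
      omega

lemma val_eq_of_ord (P : Plk kb L) {x y : L} (hx : x ≠ 0) (hy : y ≠ 0) (h : ord P x = ord P y) :
    P.1.valuation x = P.1.valuation y :=
  le_antisymm ((P025H855.val_le_iff P hx hy).2 h.ge) ((P025H855.val_le_iff P hy hx).2 h.le)

end small

section pair

variable {k : Type u} {E : Type v} [Field k] [CharZero k] [Field E] [Algebra k E]
  {T : Set (ValuationSubring E)}

omit [CharZero k] in
/-- the place of `E k̄` under a valuation ring -/
lemma exists_plk {Ω : Type w} [Field Ω] [Algebra E Ω] [Algebra (geomField k E) Ω]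
    (hj : ∀ x : E, algebraMap (geomField k E) Ω (toGeom k E x) = algebraMap E Ω x)
    (W : ValuationSubring Ω) (hW : IsPlace k E (W.comap (algebraMap E Ω))) :
    ∃ P : Plk (constClosure k E) (geomField k E),
      P.1 = W.comap (algebraMap (geomField k E) Ω) ∧ ∀ (x : E) (y : geomField k E),
        (y : AlgebraicClosure E) = algebraMap E (AlgebraicClosure E) x →
          (x ∈ W.comap (algebraMap E Ω) ↔ y ∈ P.1) := by
  have hmem : ∀ x : E, x ∈ W.comap (algebraMap E Ω) ↔
      toGeom k E x ∈ W.comap (algebraMap (geomField k E) Ω) := by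
    intro x
    rw [ValuationSubring.mem_comap, ValuationSubring.mem_comap, hj]
  refine ⟨⟨W.comap (algebraMap (geomField k E) Ω), fun a => ?_, fun htop => ?_⟩, rfl, ?_⟩
  · refine mem_of_integral _ (L := k) (fun c => ?_) _ ?_
    · have h1 : algebraMap k (geomField k E) c = toGeom k E (algebraMap k E c) :=
        Subtype.ext (IsScalarTower.algebraMap_apply k E (AlgebraicClosure E) c)
      rw [h1, ← hmem]
      exact hW.const_mem c
    · have h2 : IsIntegral k a := Algebra.IsIntegral.isIntegral a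
      exact h2.algebraMap
  · apply hW.ne_top
    rw [eq_top_iff]
    intro x _
    rw [hmem, htop]
    exact ValuationSubring.mem_top _
  · intro x y hy
    have h1 : y = toGeom k E x := Subtype.ext hy
    rw [h1]
    exact hmem x

lemma geom_mem_maxOut (x : geomField k E) : (x : AlgebraicClosure E) ∈ maxOut k T :=
  maxUnr_le_maxOut (P025H577.mem_maxUnr_of_geom _ x.2)

/-- roots of functions with divisible values outside the cusps -/
lemma root_mem [CFF (constClosure k E) (geomField k E)]
    (S : Finset (Plc (constClosure k E) (geomField k E)))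
    (hS : ∀ P ∈ S, ∀ V ∈ T, ¬ ∀ (x : E) (y : geomField k E),
      (y : AlgebraicClosure E) = algebraMap E (AlgebraicClosure E) x → (x ∈ V ↔ y ∈ P.1))
    {f π : geomField k E} (hf : f ≠ 0) (hπ : π ≠ 0)
    (h : ∀ P : Plk (constClosure k E) (geomField k E), P ∉ S → ord P f = 0 ∨ ord P f = 2 * ord P π)
    {a : AlgebraicClosure E} (ha : a ^ 2 = f) : a ∈ maxOut k T := by
  have h1 : FiniteDimensional E E⟮(f : AlgebraicClosure E)⟯ :=
    IntermediateField.adjoin.finiteDimensional (Algebra.IsIntegral.isIntegral _)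
  have h2 : FiniteDimensional E E⟮(π : AlgebraicClosure E)⟯ :=
    IntermediateField.adjoin.finiteDimensional (Algebra.IsIntegral.isIntegral _)
  set A : IntermediateField E (AlgebraicClosure E) :=
    E⟮(f : AlgebraicClosure E)⟯ ⊔ E⟮(π : AlgebraicClosure E)⟯ with hA
  have hfin : FiniteDimensional E A := IntermediateField.finiteDimensional_sup _ _
  have hfA : (f : AlgebraicClosure E) ∈ A :=
    (le_sup_left : _ ≤ A) (IntermediateField.mem_adjoin_simple_self E _)
  have hπA : (π : AlgebraicClosure E) ∈ A :=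
    (le_sup_right : _ ≤ A) (IntermediateField.mem_adjoin_simple_self E _)
  have hAM : A ≤ maxOut k T :=
    sup_le (IntermediateField.adjoin_simple_le_iff.2 (geom_mem_maxOut f))
      (IntermediateField.adjoin_simple_le_iff.2 (geom_mem_maxOut π))
  refine mem_maxOut_of_sameVal hAM a (fun W hW hWT => ?_)
  refine sameVal_root hW A two_ne_zero a _ hfA ha ?_
  obtain ⟨P, hP, hPV⟩ := exists_plk (k := k) (fun _ => rfl) W hW
  have hval : ∀ y z : geomField k E, y ≠ 0 → z ≠ 0 → ord P y = ord P z →
      W.valuation (y : AlgebraicClosure E) = W.valuation (z : AlgebraicClosure E) := by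
    intro y z hy hz hyz
    have h3 := val_eq_of_ord P hy hz hyz
    rw [hP, comap_val_eq_iff] at h3
    exact h3
  rcases h P (fun hPS => hS P hPS _ hWT hPV) with h3 | h3
  · refine ⟨1, one_mem _, ?_⟩
    rw [hval f 1 hf one_ne_zero (by rw [h3, ord_one]), ← map_pow, one_pow]
    rfl
  · refine ⟨π, hπA, ?_⟩
    rw [hval f (π ^ 2) hf (pow_ne_zero 2 hπ) (by rw [h3, ord_pow]; rfl), ← map_pow]
    rfl

omit [CharZero k] in
/-- finitely many cusps suffice -/
lemma exists_cusps (h : IsHyperbolicPair k T) :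
    ∃ S : Finset (Plc (constClosure k E) (geomField k E)),
      (∀ P ∈ S, ∀ V ∈ T, ¬ ∀ (x : E) (y : geomField k E),
        (y : AlgebraicClosure E) = algebraMap E (AlgebraicClosure E) x → (x ∈ V ↔ y ∈ P.1)) ∧
      2 < 2 * genus (constClosure k E) (geomField k E) + S.card := by
  classical
  obtain ⟨C, hsub, hcard⟩ := Set.exists_subset_encard_eq (min_le_right 3 (Cusps k T).encard)
  have hfin : C.Finite := Set.finite_of_encard_le_coe (k := 3) (by
    rw [hcard]; exact min_le_left _ _)
  let C' : Finset (ValuationSubring (geomField k E)) := hfin.toFinset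
  have hC' : ∀ W ∈ C', ∃ V, IsPlace k E V ∧ V ∉ T ∧ ∀ (x : E) (y : geomField k E),
      (y : AlgebraicClosure E) = algebraMap E (AlgebraicClosure E) x → (x ∈ V ↔ y ∈ W) :=
    fun W hW => hsub (hfin.mem_toFinset.1 hW)
  let q : ValuationSubring (geomField k E) → Prop := fun O =>
    (∀ a : constClosure k E, algebraMap (constClosure k E) (geomField k E) a ∈ O) ∧ O ≠ ⊤
  have hq : ∀ W ∈ C', q W := by
    intro W hW
    obtain ⟨V, hV, -, hVW⟩ := hC' W hW
    refine ⟨fun a => ?_, fun htop => ?_⟩
    · refine mem_of_integral _ (L := k) (fun c => ?_) _ ?_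
      · exact (hVW (algebraMap k E c) _
          (IsScalarTower.algebraMap_apply k E (AlgebraicClosure E) c)).1 (hV.const_mem c)
      · have h2 : IsIntegral k a := Algebra.IsIntegral.isIntegral a
        exact h2.algebraMap
    · apply hV.ne_top
      rw [eq_top_iff]
      intro x _
      rw [hVW x (toGeom k E x) rfl, htop]
      exact ValuationSubring.mem_top _
  refine ⟨C'.subtype q, fun P hP V' hV' h' => ?_, ?_⟩
  · obtain ⟨V, -, hVT, hVW⟩ := hC' P.1 (Finset.mem_subtype.1 hP)
    apply hVT
    have h1 : V = V' := by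
      ext x
      rw [hVW x (toGeom k E x) rfl, h' x (toGeom k E x) rfl]
    rwa [h1]
  · have h1 : ((C'.subtype q).card : ℕ∞) = min 3 (Cusps k T).encard := by
      rw [Finset.card_subtype, Finset.filter_true_of_mem hq, ← hcard]
      exact hfin.encard_eq_coe_toFinset_card.symm
    refine lt_of_lt_of_eq ?_ (congrArg (fun z => 2 * genus (constClosure k E) (geomField k E) + z)
      h1.symm)
    rcases min_choice 3 (Cusps k T).encard with h2 | h2
    · rw [h2]
      exact lt_of_lt_of_le (by norm_num) le_add_self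
    · rw [h2]
      exact h

/-- **Hyperbolic curves have finite etale covers whose compactification has genus at least two.** -/
theorem hasBigGenus_of_pair (hE : IsFunctionField k E) (h : IsHyperbolicPair k T) :
    HasBigGenus k (maxOut k T : IntermediateField E (AlgebraicClosure E)) := by
  classical
  obtain ⟨S, hS, hcount⟩ := exists_cusps h
  have c1 := cff_geomField hE
  have hgen : genus (constClosure k E) (geomField k E) = gen (constClosure k E) (geomField k E) :=
    le_antisymm genus_le_gen gen_le_genus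
  by_cases h2 : 2 ≤ gen (constClosure k E) (geomField k E)
  · refine hasBigGenus_of_genus hE ?_ _
    rw [hgen]
    exact_mod_cast h2
  rw [hgen] at hcount
  have hcount' : 2 < 2 * gen (constClosure k E) (geomField k E) + S.card := by
    exact_mod_cast hcount
  refine hasBigGenus_of_tripod hE ?_
  have hchar : CharZero (constClosure k E) :=
    charZero_of_injective_algebraMap (algebraMap k (constClosure k E)).injective
  have hcharE : CharZero E := charZero_of_injective_algebraMap (algebraMap k E).injective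
  obtain ⟨M, hMT⟩ : ∃ M : IntermediateField E (AlgebraicClosure E), M = maxOut k T := ⟨_, rfl⟩
  unfold HasTripodMap
  rw [← hMT]
  have hcharM : CharZero M := charZero_of_injective_algebraMap (algebraMap E M).injective
  let j : geomField k E →+* M := (algebraMap (geomField k E) (AlgebraicClosure E)).codRestrict
    M.toSubfield.toSubring (fun x => by rw [hMT]; exact geom_mem_maxOut x)
  let _ : Algebra (geomField k E) M := j.toAlgebra
  have hj : ∀ x : E, algebraMap (geomField k E) M (toGeom k E x) = algebraMap E M x :=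
    fun _ => rfl
  have htr : ∀ x : geomField k E, (∀ a, x ≠ algebraMap (constClosure k E) (geomField k E) a) →
      Transcendental k (j x) := by
    intro x hx halg
    have h1 : IsIntegral k (x : AlgebraicClosure E) := isIntegral_coeM.2 halg.isIntegral
    exact hx ⟨x, mem_algebraicClosure_iff.2 h1.isAlgebraic⟩ (Subtype.ext rfl)
  have hplace : ∀ W : ValuationSubring M, IsPlace k E (W.comap (algebraMap E M)) →
      W.comap (algebraMap E M) ∈ T → ∃ P : Plk (constClosure k E) (geomField k E), P ∉ S ∧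
        ∀ x : geomField k E, 0 ≤ ord P x → j x ∈ W := by
    intro W hW hWT
    obtain ⟨P, hP, hPV⟩ := exists_plk (k := k) hj W hW
    refine ⟨P, fun hPS => hS P hPS _ hWT hPV, fun x hx => ?_⟩
    have h1 := (mem_iff_ord P x).2 (Or.inr hx)
    rw [hP] at h1
    exact h1
  by_cases h0 : gen (constClosure k E) (geomField k E) = 0
  · obtain ⟨P₀, P₁, P₂, m₀, m₁, m₂, h01, h02, h12⟩ := Finset.two_lt_card_iff.1 (by omega : 2 < S.card)
    obtain ⟨t, ht, hu⟩ := genus_zero h0 h01 h02 h12
    refine ⟨j t, htr t ht, fun W hW hWT => ?_⟩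
    obtain ⟨P, hPS, hP⟩ := hplace W hW hWT
    obtain ⟨h3, h4⟩ := hu P (fun h => hPS (h ▸ m₀)) (fun h => hPS (h ▸ m₁)) (fun h => hPS (h ▸ m₂))
    refine ⟨hP t h3.ge, ?_, ?_⟩
    · rw [← map_inv₀]
      exact hP _ (by rw [ord_inv, h3, neg_zero])
    · rw [← map_one j, ← map_sub, ← map_inv₀]
      exact hP _ (by rw [ord_inv, h4, neg_zero])
  · obtain ⟨P₀, m₀⟩ := Finset.card_pos.1 (by omega : 0 < S.card)
    obtain ⟨x, hx, hreg, e, he, hπ⟩ := genus_one (kb := constClosure k E) (L := geomField k E)
      (by omega) P₀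
    let e' : Fin 3 → M := fun i => j (algebraMap (constClosure k E) (geomField k E) (e i))
    have halg : ∀ i, IsAlgebraic k (e' i) := fun i =>
      (isIntegral_coeM.1 (mem_algebraicClosure_iff.1 (e i).2).isIntegral).isAlgebraic
    have hinj : ∀ i i', i ≠ i' → e' i ≠ e' i' := fun i i' hne h =>
      hne (he ((algebraMap (constClosure k E) (geomField k E)).injective (j.injective h)))
    have hroot : ∀ i, ∃ a : M, a ^ 2 = j x - e' i := by
      intro i
      obtain ⟨π, hπ0, hπ⟩ := hπ i
      obtain ⟨a, ha⟩ := IsAlgClosed.exists_pow_nat_eq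
        ((x - algebraMap (constClosure k E) (geomField k E) (e i) : geomField k E) :
          AlgebraicClosure E) two_pos
      have h1 : a ∈ M := by
        rw [hMT]
        exact root_mem S hS (sub_ne_zero.2 (hx _)) hπ0
          (fun P hP => hπ P (fun h => hP (h ▸ m₀))) ha
      exact ⟨⟨a, h1⟩, Subtype.ext ha⟩
    obtain ⟨a, ha⟩ := hroot 0
    obtain ⟨b, hb⟩ := hroot 1
    obtain ⟨c, hc⟩ := hroot 2
    obtain ⟨t, ht, hW⟩ := exists_sol_three (k := k) (x := j x)
      (P := fun W : ValuationSubring M => IsPlace k E (W.comap (algebraMap E M)) ∧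
        W.comap (algebraMap E M) ∈ T) (by
        rintro W ⟨hW, hWT⟩
        refine ⟨fun c hc => mem_of_integral W (L := k) (fun d => ?_) c hc.isIntegral, ?_⟩
        · have h1 := hW.const_mem d
          rwa [ValuationSubring.mem_comap, ← IsScalarTower.algebraMap_apply] at h1
        · obtain ⟨P, hPS, hP⟩ := hplace W hW hWT
          exact hP x (hreg P (fun h => hPS (h ▸ m₀)))) (htr x hx) (halg 0) (halg 1) (halg 2)
      (hinj 0 1 (by decide)) (hinj 0 2 (by decide)) (hinj 1 2 (by decide)) ha hb hc two_ne_zero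
    exact ⟨t, ht, fun W h1 h2 => hW W ⟨h1, h2⟩⟩

end pair

end Vale.Agent.N025
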